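import Vale.Agent.P236JE.Lv2
import Vale.Agent.P236JL.D.Rk

/-!
# P236JE / Cfg : the sums which belong to the structure maps
-/

noncomputable section

namespace Vale.Agent.P236JK

def et2 : EX :=
  (.ga (nat_lit 1) (.add (.add (.leaf (nat_lit 1052672) (nat_lit 0) (nat_lit 0) (nat_lit 0)
  (nat_lit 0) (nat_lit 1) (nat_lit 0) (nat_lit 0)) (.leaf (nat_lit 786432) (nat_lit 1) (nat_lit 0)
  (nat_lit 0) (nat_lit 3) (nat_lit 0) (nat_lit 0) (nat_lit 0))) (.shr (nat_lit 0) (nat_lit 1)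
  (.leaf (nat_lit 0) (nat_lit 0) (nat_lit 0) (nat_lit 0) (nat_lit 0) (nat_lit 0) (nat_lit 0)
  (nat_lit 0)))) (.neg (.add (.leaf (nat_lit 524288) (nat_lit 1) (nat_lit 0) (nat_lit 0) (nat_lit
  2) (nat_lit 0) (nat_lit 0) (nat_lit 0)) (.leaf (nat_lit 262144) (nat_lit 2) (nat_lit 0) (nat_lit
  0) (nat_lit 1) (nat_lit 0) (nat_lit 0) (nat_lit 0)))))

def et3 : EX :=
  (.ga (nat_lit 2) (.ga (nat_lit 1) (.add (.add (.leaf (nat_lit 3407936) (nat_lit 0) (nat_lit 0)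
  (nat_lit 0) (nat_lit 0) (nat_lit 0) (nat_lit 1) (nat_lit 0)) (.add (.leaf (nat_lit 3407873)
  (nat_lit 0) (nat_lit 1) (nat_lit 0) (nat_lit 0) (nat_lit 0) (nat_lit 0) (nat_lit 0)) (.leaf
  (nat_lit 3158016) (nat_lit 1) (nat_lit 0) (nat_lit 0) (nat_lit 0) (nat_lit 3) (nat_lit 0)
  (nat_lit 0)))) (.add (.shr (nat_lit 0) (nat_lit 1) (.leaf (nat_lit 2359296) (nat_lit 0) (nat_lit
  0) (nat_lit 0) (nat_lit 9) (nat_lit 0) (nat_lit 0) (nat_lit 0))) (.shr (nat_lit 1) (nat_lit 0)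
  (.neg (.add (.leaf (nat_lit 1572864) (nat_lit 3) (nat_lit 0) (nat_lit 0) (nat_lit 6) (nat_lit 0)
  (nat_lit 0) (nat_lit 0)) (.leaf (nat_lit 786432) (nat_lit 6) (nat_lit 0) (nat_lit 0) (nat_lit 3)
  (nat_lit 0) (nat_lit 0) (nat_lit 0))))))) (.add (.neg (.add (.leaf (nat_lit 2891776) (nat_lit 1)
  (nat_lit 0) (nat_lit 0) (nat_lit 3) (nat_lit 2) (nat_lit 0) (nat_lit 0)) (.leaf (nat_lit
  2625536) (nat_lit 2) (nat_lit 0) (nat_lit 0) (nat_lit 6) (nat_lit 1) (nat_lit 0) (nat_lit 0))))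
  (.add (.shr (nat_lit 0) (nat_lit 1) (.add (.leaf (nat_lit 1839104) (nat_lit 1) (nat_lit 0)
  (nat_lit 0) (nat_lit 3) (nat_lit 1) (nat_lit 0) (nat_lit 0)) (.neg (.add (.leaf (nat_lit
  2105344) (nat_lit 0) (nat_lit 0) (nat_lit 0) (nat_lit 0) (nat_lit 2) (nat_lit 0) (nat_lit 0))
  (.leaf (nat_lit 1572864) (nat_lit 2) (nat_lit 0) (nat_lit 0) (nat_lit 6) (nat_lit 0) (nat_lit 0)
  (nat_lit 0)))))) (.shr (nat_lit 0) (nat_lit 2) (.neg (.add (.leaf (nat_lit 1052672) (nat_lit 0)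
  (nat_lit 0) (nat_lit 0) (nat_lit 0) (nat_lit 1) (nat_lit 0) (nat_lit 0)) (.leaf (nat_lit 786432)
  (nat_lit 1) (nat_lit 0) (nat_lit 0) (nat_lit 3) (nat_lit 0) (nat_lit 0) (nat_lit 0)))))))) (.add
  (.add (.add (.add (.leaf (nat_lit 2629632) (nat_lit 1) (nat_lit 0) (nat_lit 0) (nat_lit 2)
  (nat_lit 2) (nat_lit 0) (nat_lit 0)) (.leaf (nat_lit 2367488) (nat_lit 2) (nat_lit 0) (nat_lit
  0) (nat_lit 1) (nat_lit 2) (nat_lit 0) (nat_lit 0))) (.add (.leaf (nat_lit 2097152) (nat_lit 3)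
  (nat_lit 0) (nat_lit 0) (nat_lit 8) (nat_lit 0) (nat_lit 0) (nat_lit 0)) (.leaf (nat_lit
  1835008) (nat_lit 4) (nat_lit 0) (nat_lit 0) (nat_lit 7) (nat_lit 0) (nat_lit 0) (nat_lit 0))))
  (.neg (.add (.leaf (nat_lit 2363392) (nat_lit 2) (nat_lit 0) (nat_lit 0) (nat_lit 5) (nat_lit 1)
  (nat_lit 0) (nat_lit 0)) (.leaf (nat_lit 2101248) (nat_lit 3) (nat_lit 0) (nat_lit 0) (nat_lit
  4) (nat_lit 1) (nat_lit 0) (nat_lit 0))))) (.add (.shr (nat_lit 0) (nat_lit 1) (.neg (.add (.add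
  (.leaf (nat_lit 1576960) (nat_lit 1) (nat_lit 0) (nat_lit 0) (nat_lit 2) (nat_lit 1) (nat_lit 0)
  (nat_lit 0)) (.leaf (nat_lit 1314816) (nat_lit 2) (nat_lit 0) (nat_lit 0) (nat_lit 1) (nat_lit
  1) (nat_lit 0) (nat_lit 0))) (.add (.leaf (nat_lit 1310720) (nat_lit 2) (nat_lit 0) (nat_lit 0)
  (nat_lit 5) (nat_lit 0) (nat_lit 0) (nat_lit 0)) (.leaf (nat_lit 1048576) (nat_lit 3) (nat_lit
  0) (nat_lit 0) (nat_lit 4) (nat_lit 0) (nat_lit 0) (nat_lit 0)))))) (.shr (nat_lit 0) (nat_lit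
  2) (.add (.leaf (nat_lit 524288) (nat_lit 1) (nat_lit 0) (nat_lit 0) (nat_lit 2) (nat_lit 0)
  (nat_lit 0) (nat_lit 0)) (.leaf (nat_lit 262144) (nat_lit 2) (nat_lit 0) (nat_lit 0) (nat_lit 1)
  (nat_lit 0) (nat_lit 0) (nat_lit 0)))))))

def et4 : EX :=
  (.ga (nat_lit 2) (.ga (nat_lit 1) (.gc (nat_lit 1) (nat_lit 0) (.add (.add (.add (.add (.leaf
  (nat_lit 10486784) (nat_lit 0) (nat_lit 0) (nat_lit 0) (nat_lit 0) (nat_lit 0) (nat_lit 0)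
  (nat_lit 1)) (.leaf (nat_lit 10485776) (nat_lit 0) (nat_lit 0) (nat_lit 1) (nat_lit 0) (nat_lit
  0) (nat_lit 0) (nat_lit 0))) (.add (.leaf (nat_lit 10485761) (nat_lit 0) (nat_lit 1) (nat_lit 0)
  (nat_lit 27) (nat_lit 0) (nat_lit 0) (nat_lit 0)) (.leaf (nat_lit 10223808) (nat_lit 1) (nat_lit
  0) (nat_lit 0) (nat_lit 0) (nat_lit 0) (nat_lit 3) (nat_lit 0)))) (.shr (nat_lit 0) (nat_lit 1)
  (.leaf (nat_lit 9474048) (nat_lit 0) (nat_lit 0) (nat_lit 0) (nat_lit 0) (nat_lit 9) (nat_lit 0)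
  (nat_lit 0)))) (.add (.shr (nat_lit 1) (nat_lit 0) (.neg (.add (.leaf (nat_lit 8675328) (nat_lit
  3) (nat_lit 0) (nat_lit 0) (nat_lit 9) (nat_lit 6) (nat_lit 0) (nat_lit 0)) (.leaf (nat_lit
  7876608) (nat_lit 6) (nat_lit 0) (nat_lit 0) (nat_lit 18) (nat_lit 3) (nat_lit 0) (nat_lit
  0))))) (.add (.shr (nat_lit 1) (nat_lit 3) (.add (.leaf (nat_lit 5517312) (nat_lit 3) (nat_lit
  0) (nat_lit 0) (nat_lit 9) (nat_lit 3) (nat_lit 0) (nat_lit 0)) (.neg (.add (.leaf (nat_lit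
  6316032) (nat_lit 0) (nat_lit 0) (nat_lit 0) (nat_lit 0) (nat_lit 6) (nat_lit 0) (nat_lit 0))
  (.leaf (nat_lit 4718592) (nat_lit 6) (nat_lit 0) (nat_lit 0) (nat_lit 18) (nat_lit 0) (nat_lit
  0) (nat_lit 0)))))) (.shr (nat_lit 1) (nat_lit 6) (.neg (.add (.leaf (nat_lit 3158016) (nat_lit
  0) (nat_lit 0) (nat_lit 0) (nat_lit 0) (nat_lit 3) (nat_lit 0) (nat_lit 0)) (.leaf (nat_lit
  2359296) (nat_lit 3) (nat_lit 0) (nat_lit 0) (nat_lit 9) (nat_lit 0) (nat_lit 0) (nat_lit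
  0)))))))) (.neg (.add (.leaf (nat_lit 4718592) (nat_lit 9) (nat_lit 0) (nat_lit 0) (nat_lit 18)
  (nat_lit 0) (nat_lit 0) (nat_lit 0)) (.leaf (nat_lit 2359296) (nat_lit 18) (nat_lit 0) (nat_lit
  0) (nat_lit 9) (nat_lit 0) (nat_lit 0) (nat_lit 0))))) (.add (.add (.add (.add (.leaf (nat_lit
  9973825) (nat_lit 1) (nat_lit 1) (nat_lit 0) (nat_lit 0) (nat_lit 3) (nat_lit 1) (nat_lit 0))
  (.neg (.add (.add (.leaf (nat_lit 10223745) (nat_lit 0) (nat_lit 1) (nat_lit 0) (nat_lit 0)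
  (nat_lit 0) (nat_lit 2) (nat_lit 0)) (.add (.leaf (nat_lit 10223682) (nat_lit 0) (nat_lit 2)
  (nat_lit 0) (nat_lit 0) (nat_lit 0) (nat_lit 1) (nat_lit 0)) (.leaf (nat_lit 9973888) (nat_lit
  1) (nat_lit 0) (nat_lit 0) (nat_lit 0) (nat_lit 3) (nat_lit 2) (nat_lit 0)))) (.add (.leaf
  (nat_lit 9973762) (nat_lit 1) (nat_lit 2) (nat_lit 0) (nat_lit 0) (nat_lit 3) (nat_lit 0)
  (nat_lit 0)) (.add (.leaf (nat_lit 9723968) (nat_lit 2) (nat_lit 0) (nat_lit 0) (nat_lit 0)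
  (nat_lit 6) (nat_lit 1) (nat_lit 0)) (.leaf (nat_lit 9723905) (nat_lit 2) (nat_lit 1) (nat_lit
  0) (nat_lit 0) (nat_lit 6) (nat_lit 0) (nat_lit 0))))))) (.shr (nat_lit 0) (nat_lit 1) (.add
  (.add (.leaf (nat_lit 9175105) (nat_lit 0) (nat_lit 1) (nat_lit 0) (nat_lit 9) (nat_lit 0)
  (nat_lit 1) (nat_lit 0)) (.add (.leaf (nat_lit 8925248) (nat_lit 1) (nat_lit 0) (nat_lit 0)
  (nat_lit 9) (nat_lit 3) (nat_lit 1) (nat_lit 0)) (.leaf (nat_lit 8925185) (nat_lit 1) (nat_lit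
  1) (nat_lit 0) (nat_lit 9) (nat_lit 3) (nat_lit 0) (nat_lit 0)))) (.neg (.add (.leaf (nat_lit
  9175168) (nat_lit 0) (nat_lit 0) (nat_lit 0) (nat_lit 9) (nat_lit 0) (nat_lit 2) (nat_lit 0))
  (.add (.leaf (nat_lit 9175042) (nat_lit 0) (nat_lit 2) (nat_lit 0) (nat_lit 9) (nat_lit 0)
  (nat_lit 0) (nat_lit 0)) (.leaf (nat_lit 8675328) (nat_lit 2) (nat_lit 0) (nat_lit 0) (nat_lit
  9) (nat_lit 6) (nat_lit 0) (nat_lit 0)))))))) (.add (.shr (nat_lit 0) (nat_lit 2) (.neg (.add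
  (.leaf (nat_lit 8126528) (nat_lit 0) (nat_lit 0) (nat_lit 0) (nat_lit 18) (nat_lit 0) (nat_lit
  1) (nat_lit 0)) (.add (.leaf (nat_lit 8126465) (nat_lit 0) (nat_lit 1) (nat_lit 0) (nat_lit 18)
  (nat_lit 0) (nat_lit 0) (nat_lit 0)) (.leaf (nat_lit 7876608) (nat_lit 1) (nat_lit 0) (nat_lit
  0) (nat_lit 18) (nat_lit 3) (nat_lit 0) (nat_lit 0)))))) (.shr (nat_lit 1) (nat_lit 0) (.add
  (.add (.add (.leaf (nat_lit 8388736) (nat_lit 3) (nat_lit 0) (nat_lit 0) (nat_lit 6) (nat_lit 0)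
  (nat_lit 2) (nat_lit 0)) (.add (.leaf (nat_lit 8388610) (nat_lit 3) (nat_lit 2) (nat_lit 0)
  (nat_lit 6) (nat_lit 0) (nat_lit 0) (nat_lit 0)) (.leaf (nat_lit 7888896) (nat_lit 5) (nat_lit
  0) (nat_lit 0) (nat_lit 6) (nat_lit 6) (nat_lit 0) (nat_lit 0)))) (.add (.leaf (nat_lit 7602304)
  (nat_lit 6) (nat_lit 0) (nat_lit 0) (nat_lit 3) (nat_lit 0) (nat_lit 2) (nat_lit 0)) (.add
  (.leaf (nat_lit 7602178) (nat_lit 6) (nat_lit 2) (nat_lit 0) (nat_lit 3) (nat_lit 0) (nat_lit 0)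
  (nat_lit 0)) (.leaf (nat_lit 7102464) (nat_lit 8) (nat_lit 0) (nat_lit 0) (nat_lit 3) (nat_lit
  6) (nat_lit 0) (nat_lit 0))))) (.neg (.add (.add (.leaf (nat_lit 8388673) (nat_lit 3) (nat_lit
  1) (nat_lit 0) (nat_lit 6) (nat_lit 0) (nat_lit 1) (nat_lit 0)) (.add (.leaf (nat_lit 8138816)
  (nat_lit 4) (nat_lit 0) (nat_lit 0) (nat_lit 6) (nat_lit 3) (nat_lit 1) (nat_lit 0)) (.leaf
  (nat_lit 8138753) (nat_lit 4) (nat_lit 1) (nat_lit 0) (nat_lit 6) (nat_lit 3) (nat_lit 0)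
  (nat_lit 0)))) (.add (.leaf (nat_lit 7602241) (nat_lit 6) (nat_lit 1) (nat_lit 0) (nat_lit 3)
  (nat_lit 0) (nat_lit 1) (nat_lit 0)) (.add (.leaf (nat_lit 7352384) (nat_lit 7) (nat_lit 0)
  (nat_lit 0) (nat_lit 3) (nat_lit 3) (nat_lit 1) (nat_lit 0)) (.leaf (nat_lit 7352321) (nat_lit
  7) (nat_lit 1) (nat_lit 0) (nat_lit 3) (nat_lit 3) (nat_lit 0) (nat_lit 0)))))))))) (.add (.add
  (.shr (nat_lit 1) (nat_lit 1) (.neg (.add (.add (.leaf (nat_lit 7340096) (nat_lit 3) (nat_lit 0)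
  (nat_lit 0) (nat_lit 15) (nat_lit 0) (nat_lit 1) (nat_lit 0)) (.add (.leaf (nat_lit 7340033)
  (nat_lit 3) (nat_lit 1) (nat_lit 0) (nat_lit 15) (nat_lit 0) (nat_lit 0) (nat_lit 0)) (.leaf
  (nat_lit 7090176) (nat_lit 4) (nat_lit 0) (nat_lit 0) (nat_lit 15) (nat_lit 3) (nat_lit 0)
  (nat_lit 0)))) (.add (.leaf (nat_lit 6553664) (nat_lit 6) (nat_lit 0) (nat_lit 0) (nat_lit 12)
  (nat_lit 0) (nat_lit 1) (nat_lit 0)) (.add (.leaf (nat_lit 6553601) (nat_lit 6) (nat_lit 1)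
  (nat_lit 0) (nat_lit 12) (nat_lit 0) (nat_lit 0) (nat_lit 0)) (.leaf (nat_lit 6303744) (nat_lit
  7) (nat_lit 0) (nat_lit 0) (nat_lit 12) (nat_lit 3) (nat_lit 0) (nat_lit 0))))))) (.shr (nat_lit
  1) (nat_lit 2) (.add (.leaf (nat_lit 6291456) (nat_lit 3) (nat_lit 0) (nat_lit 0) (nat_lit 24)
  (nat_lit 0) (nat_lit 0) (nat_lit 0)) (.leaf (nat_lit 5505024) (nat_lit 6) (nat_lit 0) (nat_lit
  0) (nat_lit 21) (nat_lit 0) (nat_lit 0) (nat_lit 0))))) (.add (.shr (nat_lit 2) (nat_lit 0)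
  (.add (.add (.leaf (nat_lit 5767232) (nat_lit 9) (nat_lit 0) (nat_lit 0) (nat_lit 9) (nat_lit 0)
  (nat_lit 1) (nat_lit 0)) (.add (.leaf (nat_lit 5767169) (nat_lit 9) (nat_lit 1) (nat_lit 0)
  (nat_lit 9) (nat_lit 0) (nat_lit 0) (nat_lit 0)) (.leaf (nat_lit 5517312) (nat_lit 10) (nat_lit
  0) (nat_lit 0) (nat_lit 9) (nat_lit 3) (nat_lit 0) (nat_lit 0)))) (.neg (.add (.add (.leaf
  (nat_lit 6553664) (nat_lit 6) (nat_lit 0) (nat_lit 0) (nat_lit 12) (nat_lit 0) (nat_lit 1)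
  (nat_lit 0)) (.add (.leaf (nat_lit 6553601) (nat_lit 6) (nat_lit 1) (nat_lit 0) (nat_lit 12)
  (nat_lit 0) (nat_lit 0) (nat_lit 0)) (.leaf (nat_lit 6303744) (nat_lit 7) (nat_lit 0) (nat_lit
  0) (nat_lit 12) (nat_lit 3) (nat_lit 0) (nat_lit 0)))) (.add (.leaf (nat_lit 4980800) (nat_lit
  12) (nat_lit 0) (nat_lit 0) (nat_lit 6) (nat_lit 0) (nat_lit 1) (nat_lit 0)) (.add (.leaf
  (nat_lit 4980737) (nat_lit 12) (nat_lit 1) (nat_lit 0) (nat_lit 6) (nat_lit 0) (nat_lit 0)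
  (nat_lit 0)) (.leaf (nat_lit 4730880) (nat_lit 13) (nat_lit 0) (nat_lit 0) (nat_lit 6) (nat_lit
  3) (nat_lit 0) (nat_lit 0)))))))) (.add (.shr (nat_lit 2) (nat_lit 1) (.add (.leaf (nat_lit
  4718592) (nat_lit 9) (nat_lit 0) (nat_lit 0) (nat_lit 18) (nat_lit 0) (nat_lit 0) (nat_lit 0))
  (.neg (.add (.leaf (nat_lit 5505024) (nat_lit 6) (nat_lit 0) (nat_lit 0) (nat_lit 21) (nat_lit
  0) (nat_lit 0) (nat_lit 0)) (.leaf (nat_lit 3932160) (nat_lit 12) (nat_lit 0) (nat_lit 0)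
  (nat_lit 15) (nat_lit 0) (nat_lit 0) (nat_lit 0)))))) (.shr (nat_lit 3) (nat_lit 0) (.neg (.add
  (.add (.leaf (nat_lit 6291456) (nat_lit 3) (nat_lit 0) (nat_lit 0) (nat_lit 24) (nat_lit 0)
  (nat_lit 0) (nat_lit 0)) (.add (.leaf (nat_lit 5505024) (nat_lit 6) (nat_lit 0) (nat_lit 0)
  (nat_lit 21) (nat_lit 0) (nat_lit 0) (nat_lit 0)) (.leaf (nat_lit 3932160) (nat_lit 12) (nat_lit
  0) (nat_lit 0) (nat_lit 15) (nat_lit 0) (nat_lit 0) (nat_lit 0)))) (.add (.leaf (nat_lit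
  3145728) (nat_lit 15) (nat_lit 0) (nat_lit 0) (nat_lit 12) (nat_lit 0) (nat_lit 0) (nat_lit 0))
  (.add (.leaf (nat_lit 1572864) (nat_lit 21) (nat_lit 0) (nat_lit 0) (nat_lit 6) (nat_lit 0)
  (nat_lit 0) (nat_lit 0)) (.leaf (nat_lit 786432) (nat_lit 24) (nat_lit 0) (nat_lit 0) (nat_lit
  3) (nat_lit 0) (nat_lit 0) (nat_lit 0)))))))))))) (.add (.add (.add (.add (.add (.add (.leaf
  (nat_lit 9707648) (nat_lit 1) (nat_lit 0) (nat_lit 0) (nat_lit 3) (nat_lit 2) (nat_lit 2)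
  (nat_lit 0)) (.add (.leaf (nat_lit 9707522) (nat_lit 1) (nat_lit 2) (nat_lit 0) (nat_lit 3)
  (nat_lit 2) (nat_lit 0) (nat_lit 0)) (.leaf (nat_lit 9441408) (nat_lit 2) (nat_lit 0) (nat_lit
  0) (nat_lit 6) (nat_lit 1) (nat_lit 2) (nat_lit 0)))) (.add (.leaf (nat_lit 9441282) (nat_lit 2)
  (nat_lit 2) (nat_lit 0) (nat_lit 6) (nat_lit 1) (nat_lit 0) (nat_lit 0)) (.add (.leaf (nat_lit
  9207808) (nat_lit 3) (nat_lit 0) (nat_lit 0) (nat_lit 3) (nat_lit 8) (nat_lit 0) (nat_lit 0))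
  (.leaf (nat_lit 8941568) (nat_lit 4) (nat_lit 0) (nat_lit 0) (nat_lit 6) (nat_lit 7) (nat_lit 0)
  (nat_lit 0))))) (.neg (.add (.add (.leaf (nat_lit 9707585) (nat_lit 1) (nat_lit 1) (nat_lit 0)
  (nat_lit 3) (nat_lit 2) (nat_lit 1) (nat_lit 0)) (.add (.leaf (nat_lit 9457728) (nat_lit 2)
  (nat_lit 0) (nat_lit 0) (nat_lit 3) (nat_lit 5) (nat_lit 1) (nat_lit 0)) (.leaf (nat_lit
  9457665) (nat_lit 2) (nat_lit 1) (nat_lit 0) (nat_lit 3) (nat_lit 5) (nat_lit 0) (nat_lit 0))))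
  (.add (.leaf (nat_lit 9441345) (nat_lit 2) (nat_lit 1) (nat_lit 0) (nat_lit 6) (nat_lit 1)
  (nat_lit 1) (nat_lit 0)) (.add (.leaf (nat_lit 9191488) (nat_lit 3) (nat_lit 0) (nat_lit 0)
  (nat_lit 6) (nat_lit 4) (nat_lit 1) (nat_lit 0)) (.leaf (nat_lit 9191425) (nat_lit 3) (nat_lit
  1) (nat_lit 0) (nat_lit 6) (nat_lit 4) (nat_lit 0) (nat_lit 0))))))) (.add (.shr (nat_lit 0)
  (nat_lit 1) (.add (.add (.add (.add (.leaf (nat_lit 8921216) (nat_lit 0) (nat_lit 0) (nat_lit 0)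
  (nat_lit 0) (nat_lit 2) (nat_lit 2) (nat_lit 0)) (.leaf (nat_lit 8921090) (nat_lit 0) (nat_lit
  2) (nat_lit 0) (nat_lit 0) (nat_lit 2) (nat_lit 0) (nat_lit 0))) (.add (.leaf (nat_lit 8654913)
  (nat_lit 1) (nat_lit 1) (nat_lit 0) (nat_lit 3) (nat_lit 1) (nat_lit 1) (nat_lit 0)) (.leaf
  (nat_lit 8421376) (nat_lit 2) (nat_lit 0) (nat_lit 0) (nat_lit 0) (nat_lit 8) (nat_lit 0)
  (nat_lit 0)))) (.add (.add (.leaf (nat_lit 8405056) (nat_lit 2) (nat_lit 0) (nat_lit 0) (nat_lit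
  3) (nat_lit 4) (nat_lit 1) (nat_lit 0)) (.leaf (nat_lit 8388736) (nat_lit 2) (nat_lit 0)
  (nat_lit 0) (nat_lit 6) (nat_lit 0) (nat_lit 2) (nat_lit 0))) (.add (.leaf (nat_lit 8404993)
  (nat_lit 2) (nat_lit 1) (nat_lit 0) (nat_lit 3) (nat_lit 4) (nat_lit 0) (nat_lit 0)) (.add
  (.leaf (nat_lit 8388610) (nat_lit 2) (nat_lit 2) (nat_lit 0) (nat_lit 6) (nat_lit 0) (nat_lit 0)
  (nat_lit 0)) (.leaf (nat_lit 7888896) (nat_lit 4) (nat_lit 0) (nat_lit 0) (nat_lit 6) (nat_lit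
  6) (nat_lit 0) (nat_lit 0)))))) (.neg (.add (.add (.add (.leaf (nat_lit 8921153) (nat_lit 0)
  (nat_lit 1) (nat_lit 0) (nat_lit 0) (nat_lit 2) (nat_lit 1) (nat_lit 0)) (.add (.leaf (nat_lit
  8671296) (nat_lit 1) (nat_lit 0) (nat_lit 0) (nat_lit 0) (nat_lit 5) (nat_lit 1) (nat_lit 0))
  (.leaf (nat_lit 8654976) (nat_lit 1) (nat_lit 0) (nat_lit 0) (nat_lit 3) (nat_lit 1) (nat_lit 2)
  (nat_lit 0)))) (.add (.add (.leaf (nat_lit 8659008) (nat_lit 1) (nat_lit 0) (nat_lit 0) (nat_lit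
  12) (nat_lit 2) (nat_lit 1) (nat_lit 0)) (.leaf (nat_lit 8671233) (nat_lit 1) (nat_lit 1)
  (nat_lit 0) (nat_lit 0) (nat_lit 5) (nat_lit 0) (nat_lit 0))) (.add (.leaf (nat_lit 8658945)
  (nat_lit 1) (nat_lit 1) (nat_lit 0) (nat_lit 12) (nat_lit 2) (nat_lit 0) (nat_lit 0)) (.leaf
  (nat_lit 8654850) (nat_lit 1) (nat_lit 2) (nat_lit 0) (nat_lit 3) (nat_lit 1) (nat_lit 0)
  (nat_lit 0))))) (.add (.add (.add (.leaf (nat_lit 8409088) (nat_lit 2) (nat_lit 0) (nat_lit 0)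
  (nat_lit 12) (nat_lit 5) (nat_lit 0) (nat_lit 0)) (.leaf (nat_lit 8392768) (nat_lit 2) (nat_lit
  0) (nat_lit 0) (nat_lit 15) (nat_lit 1) (nat_lit 1) (nat_lit 0))) (.add (.leaf (nat_lit 8388673)
  (nat_lit 2) (nat_lit 1) (nat_lit 0) (nat_lit 6) (nat_lit 0) (nat_lit 1) (nat_lit 0)) (.leaf
  (nat_lit 8392705) (nat_lit 2) (nat_lit 1) (nat_lit 0) (nat_lit 15) (nat_lit 1) (nat_lit 0)
  (nat_lit 0)))) (.add (.add (.leaf (nat_lit 8155136) (nat_lit 3) (nat_lit 0) (nat_lit 0) (nat_lit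
  3) (nat_lit 7) (nat_lit 0) (nat_lit 0)) (.leaf (nat_lit 8138816) (nat_lit 3) (nat_lit 0)
  (nat_lit 0) (nat_lit 6) (nat_lit 3) (nat_lit 1) (nat_lit 0))) (.add (.leaf (nat_lit 8142848)
  (nat_lit 3) (nat_lit 0) (nat_lit 0) (nat_lit 15) (nat_lit 4) (nat_lit 0) (nat_lit 0)) (.leaf
  (nat_lit 8138753) (nat_lit 3) (nat_lit 1) (nat_lit 0) (nat_lit 6) (nat_lit 3) (nat_lit 0)
  (nat_lit 0))))))))) (.shr (nat_lit 0) (nat_lit 2) (.add (.add (.add (.add (.leaf (nat_lit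
  7868544) (nat_lit 0) (nat_lit 0) (nat_lit 0) (nat_lit 0) (nat_lit 1) (nat_lit 2) (nat_lit 0))
  (.leaf (nat_lit 7868418) (nat_lit 0) (nat_lit 2) (nat_lit 0) (nat_lit 0) (nat_lit 1) (nat_lit 0)
  (nat_lit 0))) (.add (.leaf (nat_lit 7602304) (nat_lit 1) (nat_lit 0) (nat_lit 0) (nat_lit 3)
  (nat_lit 0) (nat_lit 2) (nat_lit 0)) (.add (.leaf (nat_lit 7606336) (nat_lit 1) (nat_lit 0)
  (nat_lit 0) (nat_lit 12) (nat_lit 1) (nat_lit 1) (nat_lit 0)) (.leaf (nat_lit 7610368) (nat_lit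
  1) (nat_lit 0) (nat_lit 0) (nat_lit 21) (nat_lit 2) (nat_lit 0) (nat_lit 0))))) (.add (.add
  (.leaf (nat_lit 7606273) (nat_lit 1) (nat_lit 1) (nat_lit 0) (nat_lit 12) (nat_lit 1) (nat_lit
  0) (nat_lit 0)) (.add (.leaf (nat_lit 7602178) (nat_lit 1) (nat_lit 2) (nat_lit 0) (nat_lit 3)
  (nat_lit 0) (nat_lit 0) (nat_lit 0)) (.leaf (nat_lit 7368704) (nat_lit 2) (nat_lit 0) (nat_lit
  0) (nat_lit 0) (nat_lit 7) (nat_lit 0) (nat_lit 0)))) (.add (.leaf (nat_lit 7356416) (nat_lit 2)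
  (nat_lit 0) (nat_lit 0) (nat_lit 12) (nat_lit 4) (nat_lit 0) (nat_lit 0)) (.add (.leaf (nat_lit
  7344128) (nat_lit 2) (nat_lit 0) (nat_lit 0) (nat_lit 24) (nat_lit 1) (nat_lit 0) (nat_lit 0))
  (.leaf (nat_lit 7102464) (nat_lit 3) (nat_lit 0) (nat_lit 0) (nat_lit 3) (nat_lit 6) (nat_lit 0)
  (nat_lit 0)))))) (.neg (.add (.add (.add (.leaf (nat_lit 7872576) (nat_lit 0) (nat_lit 0)
  (nat_lit 0) (nat_lit 9) (nat_lit 2) (nat_lit 1) (nat_lit 0)) (.add (.leaf (nat_lit 7868481)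
  (nat_lit 0) (nat_lit 1) (nat_lit 0) (nat_lit 0) (nat_lit 1) (nat_lit 1) (nat_lit 0)) (.leaf
  (nat_lit 7872513) (nat_lit 0) (nat_lit 1) (nat_lit 0) (nat_lit 9) (nat_lit 2) (nat_lit 0)
  (nat_lit 0)))) (.add (.leaf (nat_lit 7618624) (nat_lit 1) (nat_lit 0) (nat_lit 0) (nat_lit 0)
  (nat_lit 4) (nat_lit 1) (nat_lit 0)) (.add (.leaf (nat_lit 7622656) (nat_lit 1) (nat_lit 0)
  (nat_lit 0) (nat_lit 9) (nat_lit 5) (nat_lit 0) (nat_lit 0)) (.leaf (nat_lit 7618561) (nat_lit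
  1) (nat_lit 1) (nat_lit 0) (nat_lit 0) (nat_lit 4) (nat_lit 0) (nat_lit 0))))) (.add (.add
  (.leaf (nat_lit 7602241) (nat_lit 1) (nat_lit 1) (nat_lit 0) (nat_lit 3) (nat_lit 0) (nat_lit 1)
  (nat_lit 0)) (.add (.leaf (nat_lit 7352384) (nat_lit 2) (nat_lit 0) (nat_lit 0) (nat_lit 3)
  (nat_lit 3) (nat_lit 1) (nat_lit 0)) (.leaf (nat_lit 7340096) (nat_lit 2) (nat_lit 0) (nat_lit
  0) (nat_lit 15) (nat_lit 0) (nat_lit 1) (nat_lit 0)))) (.add (.leaf (nat_lit 7352321) (nat_lit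
  2) (nat_lit 1) (nat_lit 0) (nat_lit 3) (nat_lit 3) (nat_lit 0) (nat_lit 0)) (.add (.leaf
  (nat_lit 7340033) (nat_lit 2) (nat_lit 1) (nat_lit 0) (nat_lit 15) (nat_lit 0) (nat_lit 0)
  (nat_lit 0)) (.leaf (nat_lit 7090176) (nat_lit 3) (nat_lit 0) (nat_lit 0) (nat_lit 15) (nat_lit
  3) (nat_lit 0) (nat_lit 0))))))))))) (.add (.shr (nat_lit 0) (nat_lit 3) (.add (.add (.leaf
  (nat_lit 6823936) (nat_lit 0) (nat_lit 0) (nat_lit 0) (nat_lit 18) (nat_lit 2) (nat_lit 0)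
  (nat_lit 0)) (.leaf (nat_lit 6291456) (nat_lit 2) (nat_lit 0) (nat_lit 0) (nat_lit 24) (nat_lit
  0) (nat_lit 0) (nat_lit 0))) (.neg (.add (.add (.leaf (nat_lit 6819904) (nat_lit 0) (nat_lit 0)
  (nat_lit 0) (nat_lit 9) (nat_lit 1) (nat_lit 1) (nat_lit 0)) (.add (.leaf (nat_lit 6819841)
  (nat_lit 0) (nat_lit 1) (nat_lit 0) (nat_lit 9) (nat_lit 1) (nat_lit 0) (nat_lit 0)) (.leaf
  (nat_lit 6569984) (nat_lit 1) (nat_lit 0) (nat_lit 0) (nat_lit 9) (nat_lit 4) (nat_lit 0)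
  (nat_lit 0)))) (.add (.add (.leaf (nat_lit 6553664) (nat_lit 1) (nat_lit 0) (nat_lit 0) (nat_lit
  12) (nat_lit 0) (nat_lit 1) (nat_lit 0)) (.leaf (nat_lit 6557696) (nat_lit 1) (nat_lit 0)
  (nat_lit 0) (nat_lit 21) (nat_lit 1) (nat_lit 0) (nat_lit 0))) (.add (.leaf (nat_lit 6553601)
  (nat_lit 1) (nat_lit 1) (nat_lit 0) (nat_lit 12) (nat_lit 0) (nat_lit 0) (nat_lit 0)) (.leaf
  (nat_lit 6303744) (nat_lit 2) (nat_lit 0) (nat_lit 0) (nat_lit 12) (nat_lit 3) (nat_lit 0)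
  (nat_lit 0)))))))) (.add (.shr (nat_lit 0) (nat_lit 4) (.add (.leaf (nat_lit 5771264) (nat_lit
  0) (nat_lit 0) (nat_lit 0) (nat_lit 18) (nat_lit 1) (nat_lit 0) (nat_lit 0)) (.leaf (nat_lit
  5505024) (nat_lit 1) (nat_lit 0) (nat_lit 0) (nat_lit 21) (nat_lit 0) (nat_lit 0) (nat_lit 0))))
  (.shr (nat_lit 1) (nat_lit 0) (.add (.add (.add (.leaf (nat_lit 7872576) (nat_lit 4) (nat_lit 0)
  (nat_lit 0) (nat_lit 9) (nat_lit 2) (nat_lit 1) (nat_lit 0)) (.add (.leaf (nat_lit 7872513)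
  (nat_lit 4) (nat_lit 1) (nat_lit 0) (nat_lit 9) (nat_lit 2) (nat_lit 0) (nat_lit 0)) (.leaf
  (nat_lit 7622656) (nat_lit 5) (nat_lit 0) (nat_lit 0) (nat_lit 9) (nat_lit 5) (nat_lit 0)
  (nat_lit 0)))) (.add (.leaf (nat_lit 7606336) (nat_lit 5) (nat_lit 0) (nat_lit 0) (nat_lit 12)
  (nat_lit 1) (nat_lit 1) (nat_lit 0)) (.add (.leaf (nat_lit 7606273) (nat_lit 5) (nat_lit 1)
  (nat_lit 0) (nat_lit 12) (nat_lit 1) (nat_lit 0) (nat_lit 0)) (.leaf (nat_lit 7356416) (nat_lit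
  6) (nat_lit 0) (nat_lit 0) (nat_lit 12) (nat_lit 4) (nat_lit 0) (nat_lit 0))))) (.add (.add
  (.leaf (nat_lit 7086144) (nat_lit 7) (nat_lit 0) (nat_lit 0) (nat_lit 6) (nat_lit 2) (nat_lit 1)
  (nat_lit 0)) (.add (.leaf (nat_lit 7086081) (nat_lit 7) (nat_lit 1) (nat_lit 0) (nat_lit 6)
  (nat_lit 2) (nat_lit 0) (nat_lit 0)) (.leaf (nat_lit 6836224) (nat_lit 8) (nat_lit 0) (nat_lit
  0) (nat_lit 6) (nat_lit 5) (nat_lit 0) (nat_lit 0)))) (.add (.leaf (nat_lit 6819904) (nat_lit 8)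
  (nat_lit 0) (nat_lit 0) (nat_lit 9) (nat_lit 1) (nat_lit 1) (nat_lit 0)) (.add (.leaf (nat_lit
  6819841) (nat_lit 8) (nat_lit 1) (nat_lit 0) (nat_lit 9) (nat_lit 1) (nat_lit 0) (nat_lit 0))
  (.leaf (nat_lit 6569984) (nat_lit 9) (nat_lit 0) (nat_lit 0) (nat_lit 9) (nat_lit 4) (nat_lit 0)
  (nat_lit 0)))))))))) (.add (.add (.shr (nat_lit 1) (nat_lit 1) (.add (.add (.add (.add (.add
  (.leaf (nat_lit 7086144) (nat_lit 3) (nat_lit 0) (nat_lit 0) (nat_lit 6) (nat_lit 2) (nat_lit 1)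
  (nat_lit 0)) (.leaf (nat_lit 7086081) (nat_lit 3) (nat_lit 1) (nat_lit 0) (nat_lit 6) (nat_lit
  2) (nat_lit 0) (nat_lit 0))) (.add (.leaf (nat_lit 6836224) (nat_lit 4) (nat_lit 0) (nat_lit 0)
  (nat_lit 6) (nat_lit 5) (nat_lit 0) (nat_lit 0)) (.leaf (nat_lit 6823936) (nat_lit 4) (nat_lit
  0) (nat_lit 0) (nat_lit 18) (nat_lit 2) (nat_lit 0) (nat_lit 0)))) (.add (.add (.leaf (nat_lit
  6553664) (nat_lit 5) (nat_lit 0) (nat_lit 0) (nat_lit 12) (nat_lit 0) (nat_lit 1) (nat_lit 0))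
  (.leaf (nat_lit 6557696) (nat_lit 5) (nat_lit 0) (nat_lit 0) (nat_lit 21) (nat_lit 1) (nat_lit
  0) (nat_lit 0))) (.add (.leaf (nat_lit 6553601) (nat_lit 5) (nat_lit 1) (nat_lit 0) (nat_lit 12)
  (nat_lit 0) (nat_lit 0) (nat_lit 0)) (.leaf (nat_lit 6299712) (nat_lit 6) (nat_lit 0) (nat_lit
  0) (nat_lit 3) (nat_lit 2) (nat_lit 1) (nat_lit 0))))) (.add (.add (.add (.leaf (nat_lit
  6303744) (nat_lit 6) (nat_lit 0) (nat_lit 0) (nat_lit 12) (nat_lit 3) (nat_lit 0) (nat_lit 0))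
  (.leaf (nat_lit 6299649) (nat_lit 6) (nat_lit 1) (nat_lit 0) (nat_lit 3) (nat_lit 2) (nat_lit 0)
  (nat_lit 0))) (.add (.leaf (nat_lit 6049792) (nat_lit 7) (nat_lit 0) (nat_lit 0) (nat_lit 3)
  (nat_lit 5) (nat_lit 0) (nat_lit 0)) (.leaf (nat_lit 6037504) (nat_lit 7) (nat_lit 0) (nat_lit
  0) (nat_lit 15) (nat_lit 2) (nat_lit 0) (nat_lit 0)))) (.add (.add (.leaf (nat_lit 5767232)
  (nat_lit 8) (nat_lit 0) (nat_lit 0) (nat_lit 9) (nat_lit 0) (nat_lit 1) (nat_lit 0)) (.leaf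
  (nat_lit 5771264) (nat_lit 8) (nat_lit 0) (nat_lit 0) (nat_lit 18) (nat_lit 1) (nat_lit 0)
  (nat_lit 0))) (.add (.leaf (nat_lit 5767169) (nat_lit 8) (nat_lit 1) (nat_lit 0) (nat_lit 9)
  (nat_lit 0) (nat_lit 0) (nat_lit 0)) (.leaf (nat_lit 5517312) (nat_lit 9) (nat_lit 0) (nat_lit
  0) (nat_lit 9) (nat_lit 3) (nat_lit 0) (nat_lit 0)))))) (.neg (.add (.add (.leaf (nat_lit
  6819904) (nat_lit 4) (nat_lit 0) (nat_lit 0) (nat_lit 9) (nat_lit 1) (nat_lit 1) (nat_lit 0))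
  (.add (.leaf (nat_lit 6819841) (nat_lit 4) (nat_lit 1) (nat_lit 0) (nat_lit 9) (nat_lit 1)
  (nat_lit 0) (nat_lit 0)) (.leaf (nat_lit 6569984) (nat_lit 5) (nat_lit 0) (nat_lit 0) (nat_lit
  9) (nat_lit 4) (nat_lit 0) (nat_lit 0)))) (.add (.leaf (nat_lit 6033472) (nat_lit 7) (nat_lit 0)
  (nat_lit 0) (nat_lit 6) (nat_lit 1) (nat_lit 1) (nat_lit 0)) (.add (.leaf (nat_lit 6033409)
  (nat_lit 7) (nat_lit 1) (nat_lit 0) (nat_lit 6) (nat_lit 1) (nat_lit 0) (nat_lit 0)) (.leaf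
  (nat_lit 5783552) (nat_lit 8) (nat_lit 0) (nat_lit 0) (nat_lit 6) (nat_lit 4) (nat_lit 0)
  (nat_lit 0)))))))) (.add (.shr (nat_lit 1) (nat_lit 2) (.add (.add (.add (.add (.add (.leaf
  (nat_lit 6033472) (nat_lit 3) (nat_lit 0) (nat_lit 0) (nat_lit 6) (nat_lit 1) (nat_lit 1)
  (nat_lit 0)) (.leaf (nat_lit 6037504) (nat_lit 3) (nat_lit 0) (nat_lit 0) (nat_lit 15) (nat_lit
  2) (nat_lit 0) (nat_lit 0))) (.add (.leaf (nat_lit 6033409) (nat_lit 3) (nat_lit 1) (nat_lit 0)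
  (nat_lit 6) (nat_lit 1) (nat_lit 0) (nat_lit 0)) (.leaf (nat_lit 5783552) (nat_lit 4) (nat_lit
  0) (nat_lit 0) (nat_lit 6) (nat_lit 4) (nat_lit 0) (nat_lit 0)))) (.add (.add (.leaf (nat_lit
  5767232) (nat_lit 4) (nat_lit 0) (nat_lit 0) (nat_lit 9) (nat_lit 0) (nat_lit 1) (nat_lit 0))
  (.leaf (nat_lit 5767169) (nat_lit 4) (nat_lit 1) (nat_lit 0) (nat_lit 9) (nat_lit 0) (nat_lit 0)
  (nat_lit 0))) (.add (.leaf (nat_lit 5517312) (nat_lit 5) (nat_lit 0) (nat_lit 0) (nat_lit 9)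
  (nat_lit 3) (nat_lit 0) (nat_lit 0)) (.leaf (nat_lit 5505024) (nat_lit 5) (nat_lit 0) (nat_lit
  0) (nat_lit 21) (nat_lit 0) (nat_lit 0) (nat_lit 0))))) (.add (.add (.add (.leaf (nat_lit
  5247040) (nat_lit 6) (nat_lit 0) (nat_lit 0) (nat_lit 3) (nat_lit 1) (nat_lit 1) (nat_lit 0))
  (.leaf (nat_lit 5251072) (nat_lit 6) (nat_lit 0) (nat_lit 0) (nat_lit 12) (nat_lit 2) (nat_lit
  0) (nat_lit 0))) (.add (.leaf (nat_lit 5246977) (nat_lit 6) (nat_lit 1) (nat_lit 0) (nat_lit 3)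
  (nat_lit 1) (nat_lit 0) (nat_lit 0)) (.leaf (nat_lit 4997120) (nat_lit 7) (nat_lit 0) (nat_lit
  0) (nat_lit 3) (nat_lit 4) (nat_lit 0) (nat_lit 0)))) (.add (.add (.leaf (nat_lit 4980800)
  (nat_lit 7) (nat_lit 0) (nat_lit 0) (nat_lit 6) (nat_lit 0) (nat_lit 1) (nat_lit 0)) (.leaf
  (nat_lit 4980737) (nat_lit 7) (nat_lit 1) (nat_lit 0) (nat_lit 6) (nat_lit 0) (nat_lit 0)
  (nat_lit 0))) (.add (.leaf (nat_lit 4730880) (nat_lit 8) (nat_lit 0) (nat_lit 0) (nat_lit 6)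
  (nat_lit 3) (nat_lit 0) (nat_lit 0)) (.leaf (nat_lit 4718592) (nat_lit 8) (nat_lit 0) (nat_lit
  0) (nat_lit 18) (nat_lit 0) (nat_lit 0) (nat_lit 0)))))) (.neg (.add (.leaf (nat_lit 5771264)
  (nat_lit 4) (nat_lit 0) (nat_lit 0) (nat_lit 18) (nat_lit 1) (nat_lit 0) (nat_lit 0)) (.leaf
  (nat_lit 4984832) (nat_lit 7) (nat_lit 0) (nat_lit 0) (nat_lit 15) (nat_lit 1) (nat_lit 0)
  (nat_lit 0)))))) (.shr (nat_lit 1) (nat_lit 3) (.add (.add (.leaf (nat_lit 4984832) (nat_lit 3)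
  (nat_lit 0) (nat_lit 0) (nat_lit 15) (nat_lit 1) (nat_lit 0) (nat_lit 0)) (.leaf (nat_lit
  4718592) (nat_lit 4) (nat_lit 0) (nat_lit 0) (nat_lit 18) (nat_lit 0) (nat_lit 0) (nat_lit 0)))
  (.add (.leaf (nat_lit 4198400) (nat_lit 6) (nat_lit 0) (nat_lit 0) (nat_lit 12) (nat_lit 1)
  (nat_lit 0) (nat_lit 0)) (.leaf (nat_lit 3932160) (nat_lit 7) (nat_lit 0) (nat_lit 0) (nat_lit
  15) (nat_lit 0) (nat_lit 0) (nat_lit 0))))))) (.add (.shr (nat_lit 2) (nat_lit 0) (.add (.add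
  (.add (.leaf (nat_lit 6037504) (nat_lit 7) (nat_lit 0) (nat_lit 0) (nat_lit 15) (nat_lit 2)
  (nat_lit 0) (nat_lit 0)) (.leaf (nat_lit 5771264) (nat_lit 8) (nat_lit 0) (nat_lit 0) (nat_lit
  18) (nat_lit 1) (nat_lit 0) (nat_lit 0))) (.add (.leaf (nat_lit 4464640) (nat_lit 13) (nat_lit
  0) (nat_lit 0) (nat_lit 9) (nat_lit 2) (nat_lit 0) (nat_lit 0)) (.leaf (nat_lit 4198400)
  (nat_lit 14) (nat_lit 0) (nat_lit 0) (nat_lit 12) (nat_lit 1) (nat_lit 0) (nat_lit 0)))) (.neg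
  (.add (.leaf (nat_lit 5251072) (nat_lit 10) (nat_lit 0) (nat_lit 0) (nat_lit 12) (nat_lit 2)
  (nat_lit 0) (nat_lit 0)) (.leaf (nat_lit 4984832) (nat_lit 11) (nat_lit 0) (nat_lit 0) (nat_lit
  15) (nat_lit 1) (nat_lit 0) (nat_lit 0)))))) (.add (.shr (nat_lit 2) (nat_lit 1) (.add (.add
  (.add (.leaf (nat_lit 5251072) (nat_lit 6) (nat_lit 0) (nat_lit 0) (nat_lit 12) (nat_lit 2)
  (nat_lit 0) (nat_lit 0)) (.leaf (nat_lit 4718592) (nat_lit 8) (nat_lit 0) (nat_lit 0) (nat_lit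
  18) (nat_lit 0) (nat_lit 0) (nat_lit 0))) (.add (.leaf (nat_lit 4198400) (nat_lit 10) (nat_lit
  0) (nat_lit 0) (nat_lit 12) (nat_lit 1) (nat_lit 0) (nat_lit 0)) (.add (.leaf (nat_lit 3678208)
  (nat_lit 12) (nat_lit 0) (nat_lit 0) (nat_lit 6) (nat_lit 2) (nat_lit 0) (nat_lit 0)) (.leaf
  (nat_lit 3145728) (nat_lit 14) (nat_lit 0) (nat_lit 0) (nat_lit 12) (nat_lit 0) (nat_lit 0)
  (nat_lit 0))))) (.neg (.add (.add (.leaf (nat_lit 4984832) (nat_lit 7) (nat_lit 0) (nat_lit 0)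
  (nat_lit 15) (nat_lit 1) (nat_lit 0) (nat_lit 0)) (.leaf (nat_lit 4464640) (nat_lit 9) (nat_lit
  0) (nat_lit 0) (nat_lit 9) (nat_lit 2) (nat_lit 0) (nat_lit 0))) (.add (.leaf (nat_lit 3932160)
  (nat_lit 11) (nat_lit 0) (nat_lit 0) (nat_lit 15) (nat_lit 0) (nat_lit 0) (nat_lit 0)) (.leaf
  (nat_lit 3411968) (nat_lit 13) (nat_lit 0) (nat_lit 0) (nat_lit 9) (nat_lit 1) (nat_lit 0)
  (nat_lit 0))))))) (.shr (nat_lit 2) (nat_lit 2) (.add (.add (.add (.leaf (nat_lit 4198400)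
  (nat_lit 6) (nat_lit 0) (nat_lit 0) (nat_lit 12) (nat_lit 1) (nat_lit 0) (nat_lit 0)) (.leaf
  (nat_lit 3932160) (nat_lit 7) (nat_lit 0) (nat_lit 0) (nat_lit 15) (nat_lit 0) (nat_lit 0)
  (nat_lit 0))) (.add (.leaf (nat_lit 2625536) (nat_lit 12) (nat_lit 0) (nat_lit 0) (nat_lit 6)
  (nat_lit 1) (nat_lit 0) (nat_lit 0)) (.leaf (nat_lit 2359296) (nat_lit 13) (nat_lit 0) (nat_lit
  0) (nat_lit 9) (nat_lit 0) (nat_lit 0) (nat_lit 0)))) (.neg (.add (.leaf (nat_lit 3411968)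
  (nat_lit 9) (nat_lit 0) (nat_lit 0) (nat_lit 9) (nat_lit 1) (nat_lit 0) (nat_lit 0)) (.leaf
  (nat_lit 3145728) (nat_lit 10) (nat_lit 0) (nat_lit 0) (nat_lit 12) (nat_lit 0) (nat_lit 0)
  (nat_lit 0)))))))))))

def eh2 : EX :=
  (.ga (nat_lit 1) (.shr (nat_lit 1) (nat_lit 0) (.leaf (nat_lit 0) (nat_lit 0) (nat_lit 0)
  (nat_lit 0) (nat_lit 0) (nat_lit 0) (nat_lit 0) (nat_lit 0))) (.leaf (nat_lit 0) (nat_lit 3)
  (nat_lit 0) (nat_lit 0) (nat_lit 0) (nat_lit 0) (nat_lit 0) (nat_lit 0)))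

def eh3 : EX :=
  (.ga (nat_lit 2) (.ga (nat_lit 1) (.gc (nat_lit 1) (nat_lit 0) (.add (.shr (nat_lit 1) (nat_lit
  0) (.leaf (nat_lit 0) (nat_lit 9) (nat_lit 0) (nat_lit 0) (nat_lit 0) (nat_lit 0) (nat_lit 0)
  (nat_lit 0))) (.shr (nat_lit 3) (nat_lit 0) (.neg (.leaf (nat_lit 0) (nat_lit 1) (nat_lit 0)
  (nat_lit 0) (nat_lit 0) (nat_lit 0) (nat_lit 0) (nat_lit 0))))) (.leaf (nat_lit 0) (nat_lit 0)
  (nat_lit 0) (nat_lit 0) (nat_lit 0) (nat_lit 0) (nat_lit 0) (nat_lit 0))) (.shr (nat_lit 0)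
  (nat_lit 3) (.leaf (nat_lit 0) (nat_lit 0) (nat_lit 0) (nat_lit 0) (nat_lit 0) (nat_lit 0)
  (nat_lit 0) (nat_lit 0)))) (.shr (nat_lit 2) (nat_lit 0) (.neg (.leaf (nat_lit 0) (nat_lit 3)
  (nat_lit 0) (nat_lit 0) (nat_lit 0) (nat_lit 0) (nat_lit 0) (nat_lit 0)))))

def eh4 : EX :=
  (.ga (nat_lit 2) (.ga (nat_lit 1) (.gc (nat_lit 3) (nat_lit 0) (.gc (nat_lit 1) (nat_lit 0) (.gc
  (nat_lit 0) (nat_lit 1) (.add (.add (.shr (nat_lit 1) (nat_lit 9) (.leaf (nat_lit 0) (nat_lit 0)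
  (nat_lit 0) (nat_lit 0) (nat_lit 0) (nat_lit 0) (nat_lit 0) (nat_lit 0))) (.shr (nat_lit 3)
  (nat_lit 0) (.neg (.leaf (nat_lit 0) (nat_lit 28) (nat_lit 0) (nat_lit 0) (nat_lit 0) (nat_lit
  0) (nat_lit 0) (nat_lit 0))))) (.add (.shr (nat_lit 9) (nat_lit 0) (.leaf (nat_lit 0) (nat_lit
  4) (nat_lit 0) (nat_lit 0) (nat_lit 0) (nat_lit 0) (nat_lit 0) (nat_lit 0))) (.shr (nat_lit 9)
  (nat_lit 1) (.neg (.leaf (nat_lit 0) (nat_lit 0) (nat_lit 0) (nat_lit 0) (nat_lit 0) (nat_lit 0)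
  (nat_lit 0) (nat_lit 0)))))) (.leaf (nat_lit 0) (nat_lit 0) (nat_lit 0) (nat_lit 0) (nat_lit 0)
  (nat_lit 0) (nat_lit 0) (nat_lit 0))) (.leaf (nat_lit 0) (nat_lit 27) (nat_lit 0) (nat_lit 0)
  (nat_lit 0) (nat_lit 0) (nat_lit 0) (nat_lit 0))) (.neg (.leaf (nat_lit 0) (nat_lit 1) (nat_lit
  0) (nat_lit 0) (nat_lit 0) (nat_lit 0) (nat_lit 0) (nat_lit 0)))) (.gc (nat_lit 2) (nat_lit 0)
  (.gc (nat_lit 1) (nat_lit 0) (.add (.leaf (nat_lit 10223619) (nat_lit 0) (nat_lit 3) (nat_lit 0)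
  (nat_lit 0) (nat_lit 0) (nat_lit 0) (nat_lit 0)) (.add (.shr (nat_lit 5) (nat_lit 0) (.leaf
  (nat_lit 0) (nat_lit 19) (nat_lit 0) (nat_lit 0) (nat_lit 0) (nat_lit 0) (nat_lit 0) (nat_lit
  0))) (.shr (nat_lit 7) (nat_lit 0) (.neg (.leaf (nat_lit 0) (nat_lit 11) (nat_lit 0) (nat_lit 0)
  (nat_lit 0) (nat_lit 0) (nat_lit 0) (nat_lit 0)))))) (.add (.shr (nat_lit 2) (nat_lit 0) (.neg
  (.leaf (nat_lit 0) (nat_lit 18) (nat_lit 0) (nat_lit 0) (nat_lit 0) (nat_lit 0) (nat_lit 0)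
  (nat_lit 0)))) (.add (.shr (nat_lit 4) (nat_lit 0) (.neg (.leaf (nat_lit 0) (nat_lit 10)
  (nat_lit 0) (nat_lit 0) (nat_lit 0) (nat_lit 0) (nat_lit 0) (nat_lit 0)))) (.shr (nat_lit 6)
  (nat_lit 0) (.neg (.leaf (nat_lit 0) (nat_lit 2) (nat_lit 0) (nat_lit 0) (nat_lit 0) (nat_lit 0)
  (nat_lit 0) (nat_lit 0))))))) (.add (.shr (nat_lit 1) (nat_lit 0) (.neg (.leaf (nat_lit 0)
  (nat_lit 9) (nat_lit 0) (nat_lit 0) (nat_lit 0) (nat_lit 0) (nat_lit 0) (nat_lit 0)))) (.shr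
  (nat_lit 3) (nat_lit 0) (.leaf (nat_lit 0) (nat_lit 1) (nat_lit 0) (nat_lit 0) (nat_lit 0)
  (nat_lit 0) (nat_lit 0) (nat_lit 0)))))) (.gc (nat_lit 2) (nat_lit 0) (.gc (nat_lit 1) (nat_lit
  0) (.add (.shr (nat_lit 2) (nat_lit 3) (.neg (.leaf (nat_lit 0) (nat_lit 18) (nat_lit 0)
  (nat_lit 0) (nat_lit 0) (nat_lit 0) (nat_lit 0) (nat_lit 0)))) (.add (.shr (nat_lit 4) (nat_lit
  3) (.neg (.leaf (nat_lit 0) (nat_lit 10) (nat_lit 0) (nat_lit 0) (nat_lit 0) (nat_lit 0)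
  (nat_lit 0) (nat_lit 0)))) (.shr (nat_lit 6) (nat_lit 3) (.neg (.leaf (nat_lit 0) (nat_lit 2)
  (nat_lit 0) (nat_lit 0) (nat_lit 0) (nat_lit 0) (nat_lit 0) (nat_lit 0)))))) (.add (.shr
  (nat_lit 1) (nat_lit 3) (.leaf (nat_lit 0) (nat_lit 9) (nat_lit 0) (nat_lit 0) (nat_lit 0)
  (nat_lit 0) (nat_lit 0) (nat_lit 0))) (.shr (nat_lit 3) (nat_lit 3) (.neg (.leaf (nat_lit 0)
  (nat_lit 1) (nat_lit 0) (nat_lit 0) (nat_lit 0) (nat_lit 0) (nat_lit 0) (nat_lit 0)))))) (.shr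
  (nat_lit 0) (nat_lit 3) (.neg (.leaf (nat_lit 0) (nat_lit 0) (nat_lit 0) (nat_lit 0) (nat_lit 0)
  (nat_lit 0) (nat_lit 0) (nat_lit 0))))))

/-- the configuration -/
def cfJ : Cf := ⟨et2, et3, et4, eh2, eh3, eh4, Vale.Agent.P236JL.D.rk⟩

theorem cfOk : CfOk cfJ :=
  ⟨by decide +kernel, by decide +kernel, by decide +kernel, by decide +kernel, by decide +kernel,
    by decide +kernel⟩

end Vale.Agent.P236JK

end
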