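import Vale.Agent.P236JI.Rep
import Vale.Agent.P236KE.Tab

/-!
# P236JE / Lev : one level of the recursion
-/

noncomputable section

namespace Vale.Agent.P236JK

open Vale.Agent.P236K3 Vale.Agent.P236KE Ini

/-- a term times `v ^ a` and `t_2 ^ x` -/
def mulT (a : Q4) (x : ℕ) (τ : DT) : DT := ⟨τ.c, τ.v + a, τ.x + (0, x, 0, 0), τ.y⟩

/-- the negative of a term -/
def negT (τ : DT) : DT := ⟨2 * τ.c % 3, τ.v, τ.x, τ.y⟩

/-- the terms of a sum -/
def den : EX → List DT
  | .leaf _ x1 x3 x4 y1 y2 y3 y4 => [⟨1, (0, 0, 0, 0), (x1, 0, x3, x4), (y1, y2, y3, y4)⟩]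
  | .neg f => (den f).map negT
  | .add f g => den f ++ den g
  | .shr a x f => (den f).map (mulT (0, a, 0, 0) x)
  | .ga a f g => den f ++ (den g).map (mulT (a, 0, 0, 0) 0)
  | .gc c d f g => den f ++ (den g).map (mulT (0, 0, c, d) 0)

/-- the codes of the leaves are correct and all terms have weight `k` -/
def okE : EX → ℕ → Bool
  | .leaf dl x1 x3 x4 y1 y2 y3 y4, k =>
      Nat.beq dl (x3 + 16 * x4 + 64 * (y3 + 16 * y4 + 64 * y2) +
        262144 * (y1 + 4 * y2 + 13 * y3 + 40 * y4 + 13 * x3 + 40 * x4)) &&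
      Nat.beq k (x1 + 13 * x3 + 40 * x4 + (y1 + 4 * y2 + 13 * y3 + 40 * y4))
  | .neg f, k => okE f k
  | .add f g, k => okE f k && okE g k
  | .shr a x f, k => Nat.ble (4 * a + 4 * x) k && okE f (k - (4 * a + 4 * x))
  | .ga a f g, k => okE f k && (Nat.ble a k && okE g (k - a))
  | .gc c d f g, k => okE f k && (Nat.ble (13 * c + 40 * d) k && okE g (k - (13 * c + 40 * d)))

/-- the value of a list of terms -/
def sumT (l : List DT) (val : Q4 → Q4 → Q4 → K) (V E F : Q4) : K :=
  ((l.filter fun τ => le4 τ.v V).map fun τ => (τ.c : K) * val (V - τ.v) (E + τ.x) (F + τ.y)).sum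

/-- no digits from the place `n` on -/
def Lt (x : P) (n : ℕ) : Prop := ∀ i, n ≤ i → At x i 0

/-- the arrays vanish above the top row -/
def Zr (p : Pm) (X : Fm) : Prop := ∀ s, Lt (X.f s) (blk p * (top p (sV s) + 1))

variable {val : Q4 → Q4 → Q4 → K} {V E F a : Q4} {l l' : List DT} {x : ℕ}

theorem le4_iff {a b : Q4} : le4 a b = true ↔
    a.1 ≤ b.1 ∧ a.2.1 ≤ b.2.1 ∧ a.2.2.1 ≤ b.2.2.1 ∧ a.2.2.2 ≤ b.2.2.2 := by
  simp only [le4, Bool.and_eq_true, Nat.ble_eq, and_assoc]

theorem sumT_nil : sumT [] val V E F = 0 := rfl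

theorem sumT_cons (τ : DT) : sumT (τ :: l) val V E F =
    (if le4 τ.v V = true then (τ.c : K) * val (V - τ.v) (E + τ.x) (F + τ.y) else 0) +
      sumT l val V E F := by
  rw [sumT, List.filter_cons]
  split_ifs
  · rfl
  · rw [zero_add, sumT]

theorem sumT_append : sumT (l ++ l') val V E F = sumT l val V E F + sumT l' val V E F := by
  simp only [sumT, List.filter_append, List.map_append, List.sum_append]

theorem sumT_perm (h : l.Perm l') : sumT l val V E F = sumT l' val V E F :=
  ((h.filter _).map _).sum_eq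

theorem sumT_neg : sumT (l.map negT) val V E F = -sumT l val V E F := by
  induction l with
  | nil => exact neg_zero.symm
  | cons τ l ih =>
    have h : ((2 * τ.c % 3 : ℕ) : K) = -(τ.c : K) := by
      rw [ZMod.natCast_mod, Nat.cast_mul, show ((2 : ℕ) : K) = -1 by decide, neg_one_mul]
    rw [List.map_cons, sumT_cons, sumT_cons, ih, neg_add]
    simp only [negT, h]
    split_ifs
    · rw [neg_mul]
    · rw [neg_zero]

theorem sumT_mul : sumT (l.map (mulT a x)) val V E F =
    if le4 a V = true then sumT l val (V - a) (E + (0, x, 0, 0)) F else 0 := by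
  induction l with
  | nil => exact (ite_self _).symm
  | cons τ l ih =>
    rw [List.map_cons, sumT_cons, ih]
    by_cases h : le4 a V = true
    · rw [if_pos h, if_pos h, sumT_cons]
      have h1 : le4 (τ.v + a) V = true ↔ le4 τ.v (V - a) = true := by
        simp only [le4_iff, Prod.fst_add, Prod.snd_add, Prod.fst_sub, Prod.snd_sub] at h ⊢
        omega
      simp only [mulT, h1]
      rw [show V - (τ.v + a) = V - a - τ.v by
        simp only [Prod.ext_iff, Prod.fst_add, Prod.snd_add, Prod.fst_sub, Prod.snd_sub]; omega,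
        add_comm τ.x, ← add_assoc]
    · rw [if_neg h, if_neg h, if_neg, add_zero]
      simp only [le4_iff, mulT, Prod.fst_add, Prod.snd_add] at h ⊢
      omega

variable {p : Pm} {X : Fm} {S : Q4 → Prop} {w b dw db u : ℕ}

theorem ev_ga (f g : EX) (a s : ℕ) : ev p X.f (.ga a f g) s = ite' (Nat.ble a (vA (sV s)))
    (P.add (ev p X.f f s) (ev p X.f g (s - 134217728 * a))) (ev p X.f f s) := rfl

theorem ev_gc (f g : EX) (c d s : ℕ) : ev p X.f (.gc c d f g) s =
    ite' (Nat.ble c (vC (sV s)) && Nat.ble d (vD (sV s))) (P.add (ev p X.f f s)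
      (shr (ev p X.f g (s - (536870912 * c + 4294967296 * d)))
        ((top p (sV (s - (536870912 * c + 4294967296 * d))) - top p (sV s)) * blk p)))
      (ev p X.f f s) := rfl

theorem sV_eq (s : ℕ) : sV s = s / 134217728 := Nat.shiftRight_eq_div_pow s 27
theorem vA_eq (v : ℕ) : vA v = v % 4 := Nat.and_two_pow_sub_one_eq_mod v 2
theorem vC_eq (v : ℕ) : vC v = v / 4 % 8 :=
  (Nat.and_two_pow_sub_one_eq_mod _ 3).trans (congrArg (· % 8) (Nat.shiftRight_eq_div_pow v 2))
theorem vD_eq (v : ℕ) : vD v = v / 32 := Nat.shiftRight_eq_div_pow v 5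
theorem wCD_eq (v : ℕ) : wCD v = 13 * (v / 4 % 8) + 40 * (v / 32) := by
  rw [← vC_eq, ← vD_eq]
  rfl

theorem Lt.mono {x : P} {n m : ℕ} (h : Lt x n) (hm : n ≤ m) : Lt x m := fun i hi =>
  h i (hm.trans hi)

theorem Lt.add {x y : P} {n : ℕ} (h : Lt x n) (h' : Lt y n) : Lt (x.add y) n := fun i hi => by
  simpa using (h i hi).add (h' i hi)

theorem ite'_ind {α : Type} {Q : α → Prop} {c : Bool} {x y : α} (h : c = true → Q x)
    (h' : ¬ c = true → Q y) : Q (ite' c x y) := by
  cases c
  · exact h' Bool.false_ne_true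
  · exact h rfl

/-- a sum vanishes above the top row -/
theorem ev_lt (hX : Zr p X) (e : EX) {k : ℕ} (he : okE e k = true) {s : ℕ}
    (hs : s % 134217728 + 264000 * k < 134217728) :
    Lt (ev p X.f e s) (blk p * (top p (sV s) + 1)) := by
  induction e generalizing k s with
  | leaf dl x1 x3 x4 y1 y2 y3 y4 =>
    simp only [okE, Bool.and_eq_true, Nat.beq_eq] at he
    have h : sV (s + dl) = sV s := by
      rw [sV_eq, sV_eq]
      omega
    exact h ▸ hX (s + dl)
  | neg f ih => exact fun i hi => neg_zero (G := K) ▸ (ih he hs i hi).neg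
  | add f g ih ih' =>
    simp only [okE, Bool.and_eq_true] at he
    exact (ih he.1 hs).add (ih' he.2 hs)
  | shr a x f ih =>
    simp only [okE, Bool.and_eq_true] at he
    exact fun i hi => (ih he.2 (by omega) _ (hi.trans (Nat.le_add_left _ _))).shr
  | ga a f g ih ih' =>
    simp only [okE, Bool.and_eq_true] at he
    rw [ev_ga]
    refine ite'_ind (Q := fun x => Lt x _) (fun h => (ih he.1 hs).add ?_) fun _ => ih he.1 hs
    rw [Nat.ble_eq, vA_eq, sV_eq] at h
    have h1 : top p (sV (s - 134217728 * a)) = top p (sV s) := by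
      rw [top_eq, top_eq, wCD_eq, wCD_eq, sV_eq, sV_eq]
      omega
    exact h1 ▸ ih' he.2.2 (by omega)
  | gc c d f g ih ih' =>
    simp only [okE, Bool.and_eq_true] at he
    rw [ev_gc]
    refine ite'_ind (Q := fun x => Lt x _) (fun h => (ih he.1 hs).add fun i hi => ?_)
      fun _ => ih he.1 hs
    rw [Bool.and_eq_true, Nat.ble_eq, Nat.ble_eq, vC_eq, vD_eq, sV_eq] at h
    refine (ih' he.2.2 (by omega) _ ?_).shr
    generalize top p (sV (s - (536870912 * c + 4294967296 * d))) = t' at hi ⊢
    generalize top p (sV s) = t at hi ⊢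
    have h2 := Nat.mul_le_mul_left (blk p) (show t' + 1 ≤ t' - t + (t + 1) by omega)
    rw [mul_add (blk p) (t' - t), mul_comm (blk p) (t' - t)] at h2
    omega

/-- the value of a sum -/
theorem ev_at (hp : WF p) (h0 : p.tt ≤ db + p.t0) (hX : Zr p X) (h : Rep p S w b dw db X u val)
    (e : EX) {k : ℕ} (he : okE e k = true) (hS : ∀ τ ∈ den e, S (F + τ.y)) {V E : Q4}
    (hV : V.1 < 3) (ht : wt4 V + db ≤ p.tt) (hw : wt4 V + db = dw + u + k + wt4 E + wt4 F) :
    At (ev p X.f e (cod V E F dw)) (psn p V w b E) (sumT (den e) val V E F) := by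
  have h100 := hp.tt
  induction e generalizing k V E with
  | leaf dl x1 x3 x4 y1 y2 y3 y4 =>
    simp only [okE, Bool.and_eq_true, Nat.beq_eq] at he
    have h1 := h V (E + (x1, 0, x3, x4)) (F + (y1, y2, y3, y4)) (hS _ (List.mem_singleton_self _))
      hV ht (by simp only [wt4, Prod.fst_add, Prod.snd_add] at hw ⊢; omega)
    have h2 : cod V (E + (x1, 0, x3, x4)) (F + (y1, y2, y3, y4)) dw = cod V E F dw + dl := by
      simp only [cod, ff, mm, wt4, Prod.fst_add, Prod.snd_add]
      omega
    rw [h2] at h1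
    rw [den, sumT_cons, sumT_nil, add_zero, if_pos (by simp [le4_iff]), Nat.cast_one, one_mul]
    exact h1
  | neg f ih =>
    rw [den, sumT_neg]
    exact (ih he (fun τ hτ => hS (negT τ) (List.mem_map_of_mem hτ)) hV ht hw).neg
  | add f g ih ih' =>
    simp only [okE, Bool.and_eq_true] at he
    rw [den, sumT_append]
    exact (ih he.1 (fun τ hτ => hS _ (List.mem_append_left _ hτ)) hV ht hw).add
      (ih' he.2 (fun τ hτ => hS _ (List.mem_append_right _ hτ)) hV ht hw)
  | shr a x f ih =>
    simp only [okE, Bool.and_eq_true, Nat.ble_eq] at he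
    have h1 : V.2.1 ≤ top p (vv V) := by
      rw [top_vv hV (by omega)]
      rw [wt4] at ht
      omega
    rw [den, sumT_mul]
    refine At.shr (s := a * blk p + x) ?_
    split_ifs with h2
    · rw [le4_iff] at h2
      have h3 := ih he.2 (fun τ hτ => hS (mulT _ _ τ) (List.mem_map_of_mem hτ))
        (V := V - (0, a, 0, 0))
        (E := E + (0, x, 0, 0)) hV (by simp only [wt4, Prod.fst_sub, Prod.snd_sub] at ht ⊢; omega)
        (by simp only [wt4, Prod.fst_sub, Prod.snd_sub, Prod.fst_add, Prod.snd_add] at hw h2 ⊢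
            omega)
      have h4 : psn p (V - (0, a, 0, 0)) w b (E + (0, x, 0, 0)) =
          a * blk p + x + psn p V w b E := by
        change blk p * (top p (vv V) - (V.2.1 - a)) + (mb p * w + (p.bb * b + (E.2.1 + x))) = _
        rw [psn, show top p (vv V) - (V.2.1 - a) = a + (top p (vv V) - V.2.1) by
          have := h2.2.1; simp only at this; omega, mul_add, mul_comm (blk p) a]
        omega
      rw [h4] at h3
      exact h3
    · have h3 := ev_lt hX f he.2 (s := cod V E F dw) (by
        have h5 := Nat.mod_le (E.2.2.1 + 16 * E.2.2.2 + 64 * ff F + 262144 * mm E F dw) 134217728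
        rw [cod, Nat.add_mul_mod_self_left]
        generalize _ % 134217728 = z at h5 ⊢
        simp only [ff, mm, wt4] at hw ht h5
        omega)
      rw [(cod_dec (by omega)).1] at h3
      refine h3 _ ?_
      have h4 := Nat.mul_le_mul_left (blk p)
        (show top p (vv V) + 1 ≤ a + (top p (vv V) - V.2.1) by
          simp only [le4_iff, Nat.zero_le, true_and, and_true] at h2; omega)
      rw [mul_add (blk p) a, mul_comm (blk p) a] at h4
      rw [psn]
      omega
  | ga a f g ih ih' =>
    simp only [okE, Bool.and_eq_true, Nat.ble_eq] at he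
    have h1 := ih he.1 (fun τ hτ => hS _ (List.mem_append_left _ hτ)) hV ht hw
    rw [ev_ga, den, sumT_append, sumT_mul, (cod_dec (by omega)).1, (v_dec hV (by omega)).1]
    refine ite'_ind (Q := fun x => At x _ _) (fun h2 => ?_) fun h2 => ?_
    · rw [Nat.ble_eq] at h2
      rw [if_pos (by simp [le4_iff, h2])]
      have h3 := ih' he.2.2 (fun τ hτ => hS (mulT _ _ τ)
        (List.mem_append_right _ (List.mem_map_of_mem hτ)))
        (V := V - (a, 0, 0, 0)) (E := E) (lt_of_le_of_lt (Nat.sub_le _ _) hV)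
        (by simp only [wt4, Prod.fst_sub, Prod.snd_sub] at ht ⊢; omega)
        (by simp only [wt4, Prod.fst_sub, Prod.snd_sub] at hw ⊢; omega)
      have h4 : cod (V - (a, 0, 0, 0)) E F dw = cod V E F dw - 134217728 * a := by
        simp only [cod, vv, Prod.fst_sub, Prod.snd_sub]
        omega
      have h5 : psn p (V - (a, 0, 0, 0)) w b E = psn p V w b E := by
        rw [psn, psn, top_vv hV (by omega), top_vv (lt_of_le_of_lt (Nat.sub_le _ _) hV)
          (by simp only [wt4, Prod.fst_sub, Prod.snd_sub] at ht ⊢; omega)]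
        rfl
      rw [h4, h5] at h3
      exact h1.add h3
    · rw [Nat.ble_eq] at h2
      rwa [if_neg (by simp [le4_iff, h2]), add_zero]
  | gc c d f g ih ih' =>
    simp only [okE, Bool.and_eq_true, Nat.ble_eq] at he
    have h1 := ih he.1 (fun τ hτ => hS _ (List.mem_append_left _ hτ)) hV ht hw
    obtain ⟨-, v2, v3⟩ := v_dec hV (show wt4 V ≤ 100 by omega)
    rw [ev_gc, den, sumT_append, sumT_mul, (cod_dec (by omega)).1, v2, v3]
    refine ite'_ind (Q := fun x => At x _ _) (fun h2 => ?_) fun h2 => ?_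
    · rw [Bool.and_eq_true, Nat.ble_eq, Nat.ble_eq] at h2
      rw [if_pos (by simp [le4_iff, h2])]
      have h6 : wt4 (V - (0, 0, c, d)) + (13 * c + 40 * d) = wt4 V := by
        simp only [wt4, Prod.fst_sub, Prod.snd_sub]
        omega
      have h3 := ih' he.2.2 (fun τ hτ => hS (mulT _ _ τ)
        (List.mem_append_right _ (List.mem_map_of_mem hτ)))
        (V := V - (0, 0, c, d)) (E := E) hV (by omega) (by omega)
      have h4 : cod (V - (0, 0, c, d)) E F dw =
          cod V E F dw - (536870912 * c + 4294967296 * d) := by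
        simp only [cod, vv, Prod.fst_sub, Prod.snd_sub]
        omega
      rw [← h4, (cod_dec (by omega)).1]
      refine h1.add (At.shr ?_)
      have h5 : psn p (V - (0, 0, c, d)) w b E =
          (top p (vv (V - (0, 0, c, d))) - top p (vv V)) * blk p + psn p V w b E := by
        have h7 : top p (vv (V - (0, 0, c, d))) - V.2.1 =
            top p (vv (V - (0, 0, c, d))) - top p (vv V) + (top p (vv V) - V.2.1) := by
          rw [top_vv hV (by omega), top_vv (V := V - (0, 0, c, d)) hV (by omega)]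
          simp only [wt4, Prod.fst_sub, Prod.snd_sub] at ht ⊢
          omega
        change blk p * (top p (vv (V - (0, 0, c, d))) - V.2.1) + _ = _
        rw [h7, mul_add, mul_comm (blk p), add_assoc]
        rfl
      rwa [h5] at h3
    · rw [Bool.and_eq_true, Nat.ble_eq, Nat.ble_eq] at h2
      rwa [if_neg (by simpa [le4_iff] using h2), add_zero]

theorem cut_lt (u s : ℕ) (x : P) : Lt (cut p u s x) (blk p * (top p (sV s) + 1)) := fun i hi => by
  have h := min_le_right ((vA (sV s) + 4 * top p (sV s) + wCD (sV s) + (p.d2 + 4) - (sM s + u)) / 4)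
    (top p (sV s) + 1)
  rw [← len_eq] at h
  rw [cut]
  rcases hm : len p u s with _ | m
  · exact at_zero i
  · refine at_and_zero x ?_
    rw [← Bool.not_eq_true]
    change ¬ (ones ((m + 1) * blk p)).testBit i = true
    rw [bit_ones, mul_comm]
    have h1 := Nat.mul_le_mul_left (blk p) (hm ▸ h)
    omega

theorem zr_lev (e : EX) (k : ℕ) (X : Fm) (u : ℕ) : Zr p (lev' p e k X u) := fun s => cut_lt u s _

theorem zr_init : Zr p ⟨init p⟩ := fun s => cut_lt 0 s _

/-- **one level** -/
theorem lev_rep {k₁ k₂ : ℕ} (hp : WF p) (hs : Sd p w b dw db) (hX : Zr p X)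
    (h : Rep p S w b dw db X u val) {e : EX} (he : okE e (k₁ + k₂) = true)
    (hS : ∀ τ ∈ den e, ∀ F, S F → S (F + τ.y)) :
    Rep p S w b (dw + k₁) db (lev' p e (262144 * k₁) X (u + k₂)) (u + k₂) (sumT (den e) val) := by
  intro V E F hF hV ht hw
  have h1 : cod V E F (dw + k₁) - 262144 * k₁ = cod V E F dw := by
    simp only [cod, mm]
    omega
  refine At.cut hp ⟨hs.hw, hs.hb, by have := hs.bb; omega, hs.d2, hs.t0⟩ hV ht hw ?_
  change At (ev p X.f e (cod V E F (dw + k₁) - 262144 * k₁)) _ _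
  rw [h1]
  exact ev_at hp hs.t0 hX h e he (fun τ hτ => hS τ hτ F hF) hV ht (by omega)

theorem iter_succ (e : EX) (k : ℕ) (X : Fm) (u w g : ℕ) : iter p e k X u w (g + 1) =
    lev' p e k (iter p e k X u w g) (u + w * (g + 1)) := rfl

theorem zr_iter (hX : Zr p X) (e : EX) (k u w g : ℕ) : Zr p (iter p e k X u w g) := by
  rcases g with _ | g
  · exact hX
  · exact zr_lev _ _ _ _

theorem Ini.Rep.congr {val' : Q4 → Q4 → Q4 → K} (h : Rep p S w b dw db X u val)
    (e : ∀ V E F, S F → V.1 < 3 → val' V E F = val V E F) : Rep p S w b dw db X u val' :=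
  fun V E F hF hV ht hw => e V E F hF hV ▸ h V E F hF hV ht hw

/-- **several levels** -/
theorem iter_rep {k₁ k₂ : ℕ} (hp : WF p) (hs : Sd p w b dw db) (hX : Zr p X) {e : EX}
    (he : okE e (k₁ + k₂) = true) (hS : ∀ τ ∈ den e, ∀ F, S F → S (F + τ.y))
    {vl : ℕ → Q4 → Q4 → Q4 → K} (h : Rep p S w b dw db X u (vl 0))
    (hv : ∀ n V E F, S F → V.1 < 3 → vl (n + 1) V E F = sumT (den e) (vl n) V E F) (g : ℕ) :
    Rep p S w b (dw + k₁ * g) db (iter p e (262144 * k₁) X u k₂ g) (u + k₂ * g) (vl g) := by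
  induction g with
  | zero => exact h
  | succ g ih =>
    rw [iter_succ, mul_add_one, mul_add_one, ← add_assoc, ← add_assoc]
    exact (lev_rep hp ⟨hs.hw, hs.hb, by have := hs.bb; omega, hs.d2, hs.t0⟩
      (zr_iter hX _ _ _ _ _) ih he hS).congr (hv g)

end Vale.Agent.P236JK

end
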