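import Vale.Agent.P236JE.Lev
import Vale.Agent.P236JF.Alg

/-!
# P236JE / Lv2 : the arrays of the twisted functionals and of the monomials without `t_1`
-/

noncomputable section

namespace Vale.Agent.P236JK

open Vale.Agent.P236K3 Vale.Agent.P236KE Vale.Agent.P236JF Vale.Agent.P236EL Ini

/-- a term as a tuple -/
def tup (τ : DT) : ℕ × Q4 × Q4 × Q4 := (τ.c, τ.v, τ.x, τ.y)

/-- the sum `e` consists of the terms `l`, which have weight `k` -/
def isE (e : EX) (k : ℕ) (l : List DT) : Bool :=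
  okE e k && ((den e).map tup).isPerm (l.map tup)

theorem perm_of_isE {e : EX} {k : ℕ} {l : List DT} (h : isE e k l = true) :
    okE e k = true ∧ (den e).Perm l := by
  rw [isE, Bool.and_eq_true, List.isPerm_iff] at h
  refine ⟨h.1, (List.map_perm_map_iff fun a b e => ?_).1 h.2⟩
  cases a
  cases b
  simp only [tup, Prod.mk.injEq] at e
  simp only [e]

/-- the sums belong to the structure maps -/
structure CfOk (c : Cf) : Prop where
  t2 : isE c.t2 4 (dlsJ 1) = true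
  t3 : isE c.t3 13 (dlsJ 2) = true
  t4 : isE c.t4 40 (dlsJ 3) = true
  h2 : isE c.h2 4 (elsJ 1) = true
  h3 : isE c.h3 13 (elsJ 2) = true
  h4 : isE c.h4 40 (elsJ 3) = true

variable {p : Pm} {w b dw db : ℕ}

theorem rows_lt (h : 0 < p.nw) (l : DL) (be n : ℕ) : Lt (rows p l be n) (blk p * n) := by
  induction n with
  | zero => exact fun i _ => at_zero i
  | succ n ih =>
    intro i hi
    rw [mul_add_one] at hi
    obtain ⟨j, rfl⟩ := Nat.exists_eq_add_of_le ((Nat.le_add_left _ _).trans hi)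
    refine At.lor_left ((ih j (by omega)).shl (blk p)) ?_
    have h1 : (rowM p).testBit (blk p + j) = false := by
      rw [← Bool.not_eq_true]
      change ¬ (ones (mb p)).testBit _ = true
      have h2 := Nat.le_mul_of_pos_right (mb p) h
      rw [bit_ones, Ini.blk_eq]
      omega
    have h2 := at_and_zero (shr (pairAt l (be + n)) (p.b0 * p.bb)) h1
    refine ⟨h2.1, ?_⟩
    change Nat.testBit (_ ^^^ (_ &&& _)) _ = _
    rw [Nat.testBit_xor, Nat.testBit_and]
    exact (congrArg₂ (fun x y => (y ^^ (x && y))) h2.1 h2.2).trans (by decide)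

theorem zr_base (h : 0 < p.nw) (w : ℕ) : Zr p ⟨base p w⟩ := fun s =>
  (rows_lt h _ _ (len p 0 s)).mono (Nat.mul_le_mul_left _ (len_eq p 0 s ▸ min_le_right _ _))

theorem zr_tw2 (h : 0 < p.nw) (w d c b : ℕ) : Zr p (tw2 p w d c b) :=
  zr_iter (zr_iter (zr_iter (zr_base h w) _ _ _ _ _) _ _ _ _ _) _ _ _ _ _

theorem els_y : ∀ i < 4, ∀ τ ∈ elsJ i, τ.y = 0 := by decide +kernel

variable [Fact (Nat.Prime 3)]

theorem tw_step (hp : WF p) (hs : Sd p w b dw db) {X : Fm} (hX : Zr p X) {e : EX} {k i : ℕ}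
    (hi : i < 4) (he : isE e k (elsJ i) = true) {y : (ℕ →₀ ℕ) → AA K} {U : ℕ → Q4}
    (hU : ∀ n, m4 (U (n + 1)) = Finsupp.single i 1 + m4 (U n))
    (h : Rep p (· = 0) w b dw db X 0 fun V E _ => TJ y (U 0) V E) (g : ℕ) :
    Rep p (· = 0) w b (dw + k * g) db (iter p e (262144 * k) X 0 0 g) 0
      fun V E _ => TJ y (U g) V E := by
  obtain ⟨h1, h2⟩ := perm_of_isE he
  have h3 := iter_rep (k₁ := k) (k₂ := 0) hp hs hX h1
    (fun τ hτ F hF => by rw [hF, els_y i hi τ (h2.subset hτ), add_zero])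
    (vl := fun n V E _ => TJ y (U n) V E) h
    (fun n V E F _ hV => by rw [sumT_perm h2]; exact TJ_step rfl y hi (hU n) hV E) g
  rwa [zero_mul] at h3

/-- **the twisted functionals** -/
theorem tw2_rep (hc : CfOk p.cf) (hp : WF p) (hs : Sd p w b dw db) {y : (ℕ →₀ ℕ) → AA K} {w₁ : ℕ}
    (h : Rep p (· = 0) w b dw db ⟨base p w₁⟩ 0 fun V E _ => TJ y 0 V E) (d c b₂ : ℕ) :
    Rep p (· = 0) w b (dw + 4 * b₂ + 13 * c + 40 * d) db (tw2 p w₁ d c b₂) 0
      fun V E _ => TJ y (0, b₂, c, d) V E := by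
  have h0 := zr_base (Nat.zero_lt_of_lt hs.hw) w₁
  have hs' : ∀ k, Sd p w b (dw + k) db := fun k =>
    ⟨hs.hw, hs.hb, by have := hs.bb; omega, hs.d2, hs.t0⟩
  have h4 := tw_step hp hs h0 (by omega) hc.h4 (U := fun n => (0, 0, 0, n)) (m4_s3 0 0 0) h d
  have h3 := tw_step hp (hs' _) (zr_iter h0 _ _ _ _ _) (by omega) hc.h3
    (U := fun n => (0, 0, n, d)) (fun n => m4_s2 0 0 n d) h4 c
  have h2 := tw_step hp (add_assoc dw _ _ ▸ hs' _) (zr_iter (zr_iter h0 _ _ _ _ _) _ _ _ _ _)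
    (by omega) hc.h2 (U := fun n => (0, n, c, d)) (fun n => m4_s1 0 n c d) h3 b₂
  rw [show dw + 4 * b₂ + 13 * c + 40 * d = dw + 40 * d + 13 * c + 4 * b₂ by omega]
  exact h2

variable {n : ℕ} {s' s : Fin n → (ℕ →₀ ℕ) → AA K}

theorem x_step (hp : WF p) (hs : Sd p w b dw db) {X : Fm} (hX : Zr p X) {e : EX} {k i u : ℕ}
    (hi : i < 4) (he : isE e k (dlsJ i) = true) {G : ℕ → Q4}
    (hG : ∀ n, m4 (G (n + 1)) = Finsupp.single i 1 + m4 (G n))
    (h : Rep p (fun _ => True) w b dw db X u (valJ s' s (G 0))) (g : ℕ) :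
    Rep p (fun _ => True) w b dw db (iter p e 0 X u k g) (u + k * g) (valJ s' s (G g)) := by
  obtain ⟨h1, h2⟩ := perm_of_isE he
  have h3 := iter_rep (k₁ := 0) (k₂ := k) hp hs hX (by rwa [zero_add]) (fun _ _ _ _ => trivial)
    (vl := fun n => valJ s' s (G n)) h
    (fun n V E F _ hV => by rw [sumT_perm h2]; exact valJ_step s' s rfl hi (hG n) hV E F) g
  rwa [zero_mul] at h3

/-- **the monomials without the first generator** -/
theorem x2_rep (hc : CfOk p.cf) (hp : WF p) (hs : Sd p w b dw db)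
    (h : Rep p (fun _ => True) w b dw db ⟨init p⟩ 0 (valJ s' s 0)) (g4 g3 g2 : ℕ) :
    Rep p (fun _ => True) w b dw db (x2 p g4 g3 g2) (40 * g4 + 13 * g3 + 4 * g2)
      (valJ s' s (0, g2, g3, g4)) := by
  have h4 := x_step hp hs zr_init (by omega) hc.t4 (G := fun n => (0, 0, 0, n)) (m4_s3 0 0 0) h g4
  rw [zero_add] at h4
  have h3 := x_step hp hs (zr_iter zr_init _ _ _ _ _) (by omega) hc.t3
    (G := fun n => (0, 0, n, g4)) (fun n => m4_s2 0 0 n g4) h4 g3
  exact x_step hp hs (zr_iter (zr_iter zr_init _ _ _ _ _) _ _ _ _ _) (by omega) hc.t2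
    (G := fun n => (0, n, g3, g4)) (fun n => m4_s1 0 n g3 g4) h3 g2

/-- the recurrence for the first generator -/
theorem valJ_t1 (g1 g2 g3 g4 : ℕ) {V : Q4} (hV : V.1 < 3) (E F : Q4) :
    valJ s' s (g1 + 1, g2, g3, g4) V E F =
      valJ s' s (g1, g2, g3, g4) V (E + (1, 0, 0, 0)) F +
        valJ s' s (g1, g2, g3, g4) V E (F + (1, 0, 0, 0)) := by
  have h := valJ_step s' s rfl (i := 0) (by omega) (m4_s0 g1 g2 g3 g4) hV E F
  change _ = sumT dj1 _ V E F at h
  rw [h, dj1, sumT_cons, sumT_cons, sumT_nil, if_pos (by simp [le4_iff]), add_zero, Nat.cast_one,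
    one_mul, one_mul, add_comm]
  rfl

end Vale.Agent.P236JK

end
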